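import Crest.Agent.X261.Ans.EqvD
import Crest.Agent.X261.Sh97.Defs
import Crest.Agent.R266.LemmaZ

/-!
# X261/Sh4/Conn (helper4): the classes of a bi-proper irreducible relation are connected
-/

set_option autoImplicit false
set_option linter.unusedSectionVars false

open Set Filter Topology Module Metric

namespace Crest.Agent.X261.Sh4

open Crest.Agent.X261.Ans Crest.Agent.X261.Ans.HA Crest.Agent.X261.Sh97

variable {E F : Type} [NormedAddCommGroup E] [NormedSpace ℂ E] [FiniteDimensional ℂ E]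
  [NormedAddCommGroup F] [NormedSpace ℂ F] [FiniteDimensional ℂ F]
  {M : Type} [TopologicalSpace M] {A : HA E M}

/-- a regular point has a neighbourhood `N` with `Z ∩ N` parametrised by a ball -/
theorem reg_ball {Z : Set M} {d : ℕ} {x : M} (h : A.Reg Z d x) {W : Set M} (hW : W ∈ 𝓝 x) :
    ∃ (φ : (Fin d → ℂ) → M) (ρ : M → Fin d → ℂ) (r : ℝ) (N : Set M), 0 < r ∧ IsOpen N ∧ x ∈ N ∧
      N ⊆ W ∧ (∀ t ∈ ball (ρ x) r, (self (Fin d → ℂ)).Hol A φ t ∧ φ t ∈ Z ∧ φ t ∈ N ∧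
        ρ (φ t) = t) ∧ ∀ y ∈ N, A.Hol (self (Fin d → ℂ)) ρ y ∧ ρ y ∈ ball (ρ x) r ∧
        (y ∈ Z → φ (ρ y) = y) := by
  obtain ⟨φ, ρ, hφ, hρ, hφx, h1, h2⟩ := h.param
  obtain ⟨N₀, hN₀, hN₀o, hxN₀⟩ := _root_.eventually_nhds_iff.1
    (hρ.eventually.and (h2.and (show ∀ᶠ y in 𝓝 x, y ∈ W from hW)))
  have ht : Tendsto φ (𝓝 (ρ x)) (𝓝 x) := by
    have := hφ.cont.tendsto
    rwa [hφx] at this
  obtain ⟨r, hr, hb⟩ := Metric.eventually_nhds_iff_ball.1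
    (hφ.eventually.and (h1.and (ht.eventually (hN₀o.mem_nhds hxN₀))))
  have hρc : ContinuousOn ρ N₀ := fun y hy => (hN₀ y hy).1.cont.continuousWithinAt
  refine ⟨φ, ρ, r, N₀ ∩ ρ ⁻¹' ball (ρ x) r, hr, hρc.isOpen_inter_preimage hN₀o isOpen_ball,
    ⟨hxN₀, mem_ball_self hr⟩, fun y hy => (hN₀ y hy.1).2.2, fun t ht => ⟨(hb t ht).1,
    (hb t ht).2.1.1, ⟨(hb t ht).2.2, ?_⟩, (hb t ht).2.1.2⟩,
    fun y hy => ⟨(hN₀ y hy.1).1, hy.2, (hN₀ y hy.1).2.1⟩⟩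
  rw [mem_preimage, (hb t ht).2.1.2]
  exact ht

/-- a closed thin set does not disconnect a connected submanifold -/
theorem reg_diff [Countable A.ι] {C S : Set M} {d : ℕ} (hc : IsPreconnected C)
    (hr : ∀ y ∈ C, A.Reg C d y) (hS : IsClosed S) (hcov : A.Cov d (C ∩ S)) :
    IsPreconnected (C \ S) := by
  refine Rg.preconnected_diff_of_local hc fun y hy => ?_
  obtain ⟨φ, ρ, r, N, hr0, hN, hyN, -, h1, h2⟩ := reg_ball (hr y hy) univ_mem
  have hφc : ContinuousOn φ (ball (ρ y) r) := fun t ht => (h1 t ht).1.cont.continuousWithinAt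
  have hS' : Ans.Cov (finrank ℂ (Fin d → ℂ)) (ball (ρ y) r ∩ φ ⁻¹' S) := by
    rw [finrank_fin_fun]
    refine (self_cov.1 ((hcov.sub (inter_subset_left (t := N))).image
      (B := self (Fin d → ℂ)) (f := ρ) fun z hz => (h2 z hz.2).1)).sub fun t ht => ?_
    exact ⟨φ t, ⟨⟨(h1 t ht.1).2.1, ht.2⟩, (h1 t ht.1).2.2.1⟩, (h1 t ht.1).2.2.2⟩
  have hop : IsOpen (ball (ρ y) r \ (ball (ρ y) r ∩ φ ⁻¹' S)) := by
    rw [sdiff_self_inter]
    exact hφc.isOpen_inter_preimage isOpen_ball hS.isOpen_compl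
  have himg : (C ∩ N) \ S = φ '' (ball (ρ y) r \ (ball (ρ y) r ∩ φ ⁻¹' S)) := by
    ext z
    constructor
    · intro hz
      refine ⟨ρ z, ⟨(h2 z hz.1.2).2.1, fun h' => hz.2 ?_⟩, (h2 z hz.1.2).2.2 hz.1.1⟩
      rw [← (h2 z hz.1.2).2.2 hz.1.1]
      exact h'.2
    · rintro ⟨t, ht, rfl⟩
      exact ⟨⟨(h1 t ht.1).2.1, (h1 t ht.1).2.2.1⟩, fun h' => ht.2 ⟨ht.1, h'⟩⟩
  refine ⟨N, hN, hyN, ?_, fun z hz => ?_⟩
  · rw [himg]
    exact (Ans.preconnected_diff isOpen_ball (convex_ball _ _).isPreconnected hS' hop).image _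
      (hφc.mono sdiff_subset)
  · rw [himg, ← (h2 z hz.2).2.2 hz.1]
    refine mem_closure_image (h1 _ (h2 z hz.2).2.1).1.cont ?_
    rw [sdiff_eq]
    exact hS'.dense_compl.open_subset_closure_inter isOpen_ball (h2 z hz.2).2.1

/-- a closed thin set does not disconnect an irreducible set -/
theorem irr_diff [Countable A.ι] {U Y S : Set M} {d : ℕ} (hU : IsOpen U) (h : A.Irr U Y d)
    (hS : IsClosed S) (hcov : A.Cov d (U ∩ Y ∩ S)) : IsPreconnected ((U ∩ Y) \ S) := by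
  have h1 := reg_diff h.2.2.1 (fun y hy => reg_reg hU hy.1 hy.2) hS
    (hcov.sub fun y hy => ⟨⟨hy.1.1, hy.1.2.mem⟩, hy.2⟩)
  refine h1.subset_closure (fun y hy => ⟨⟨hy.1.1, hy.1.2.mem⟩, hy.2⟩) fun y hy => ?_
  refine closure_mono (fun z hz => ?_) (h.sub_closure_diff hU ((h.cov_sing hU).union hcov) hy.1)
  exact ⟨⟨hz.1.1, by_contra fun hn => hz.2 (Or.inl ⟨hz.1, hn⟩)⟩, fun hs => hz.2 (Or.inr ⟨hz.1, hs⟩)⟩

/-- boxes of a submersion -/
theorem box {τ : M → F} {b : M} (h : A.Subm (self F) τ b) {W : Set M} (hW : W ∈ 𝓝 b) :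
    ∃ N : Set M, IsOpen N ∧ b ∈ N ∧ N ⊆ W ∧ ∀ t, IsPreconnected (N ∩ τ ⁻¹' {t}) := by
  obtain ⟨i, hi⟩ := A.cover b
  obtain ⟨s, -, ε, Γ, N, -, hN, hbN, hNO, hΓ, h1, h2⟩ := R266.LZ.straighten
    ((hol_self_iff hi).1 h.hol) ((subm_self_iff h.hol hi).1 h)
    (inter_mem (ev_target hi) (tendsto_symm hi hW))
  have hNt : N ⊆ (A.e i).target := fun z hz => (hNO hz).1
  refine ⟨(A.e i).symm '' N, isOpen_symm_image hNt hN, ⟨_, hbN, (A.e i).left_inv hi⟩, ?_,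
    fun t => ?_⟩
  · rintro _ ⟨z, hz, rfl⟩
    exact (hNO hz).2
  · have e : (A.e i).symm '' N ∩ τ ⁻¹' {t} = (A.e i).symm '' (Γ ''
        (ball (τ ((A.e i).symm (A.e i b)), (0 : Fin s → ℂ)) ε ∩ {t} ×ˢ univ)) := by
      ext y
      constructor
      · rintro ⟨⟨z, hz, rfl⟩, hzt⟩
        obtain ⟨w, hw, hw'⟩ := h2 z hz
        exact ⟨z, ⟨_, ⟨hw, hzt, mem_univ _⟩, hw'⟩, rfl⟩
      · rintro ⟨_, ⟨q, hq, rfl⟩, rfl⟩
        exact ⟨⟨_, (h1 q hq.1).1, rfl⟩, (h1 q hq.1).2.trans hq.2.1⟩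
    rw [e]
    refine preconnected_symm_image ?_ (((convex_ball _ _).inter
      ((convex_singleton t).prod convex_univ)).isPreconnected.image _
      (hΓ.continuousOn.mono inter_subset_left))
    rintro _ ⟨q, hq, rfl⟩
    exact hNt (h1 q hq.1).1

/-- nearby classes of a bi-proper relation are near -/
theorem near [T2Space M] (A : HA E M) {Y : Set (M × M)} (hb : BiP Y) {x : M} {O : Set M}
    (hO : IsOpen O) (h : ∀ b, (x, b) ∈ Y → b ∈ O) : ∀ᶠ y in 𝓝 x, ∀ b, (y, b) ∈ Y → b ∈ O := by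
  have := A.locallyCompact
  obtain ⟨K, hK, hKx⟩ := exists_compact_mem_nhds x
  have h1 : IsClosed (Prod.fst '' ((Y ∩ Prod.fst ⁻¹' K) ∩ Prod.snd ⁻¹' Oᶜ)) :=
    (((hb K hK).1.inter_right (hO.isClosed_compl.preimage continuous_snd)).image
      continuous_fst).isClosed
  have h2 : x ∉ Prod.fst '' ((Y ∩ Prod.fst ⁻¹' K) ∩ Prod.snd ⁻¹' Oᶜ) := by
    rintro ⟨⟨a, b⟩, hq, rfl⟩
    exact hq.2 (h b hq.1.1)
  filter_upwards [hKx, h1.isOpen_compl.mem_nhds h2] with y hy hy' b hyb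
  by_contra hn
  exact hy' ⟨(y, b), ⟨⟨hyb, hy⟩, hn⟩, rfl⟩

theorem isCompact_cls {Y : Set (M × M)} (hb : BiP Y) (x : M) : IsCompact {b | (x, b) ∈ Y} := by
  have := (hb {x} isCompact_singleton).1.image continuous_snd
  convert this using 1
  ext b
  exact ⟨fun h => ⟨(x, b), ⟨h, rfl⟩, rfl⟩, by
    rintro ⟨⟨a, c⟩, ⟨h, rfl⟩, rfl⟩
    exact h⟩

/-- pre-tube: near `x` the classes are the fibres of a submersion -/
def PT (A : HA E M) (F : Type) [NormedAddCommGroup F] [NormedSpace ℂ F] (Y : Set (M × M))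
    (x : M) : Prop :=
  ∃ (T : Set M) (τ : M → F), IsOpen T ∧ (∀ b ∈ T, A.Subm (self F) τ b) ∧
    ∀ᶠ y in 𝓝 x, ∀ b, (y, b) ∈ Y ↔ b ∈ T ∧ τ b = τ y

theorem PT.eventually {Y : Set (M × M)} {x : M} (h : PT A F Y x) : ∀ᶠ y in 𝓝 x, PT A F Y y := by
  obtain ⟨T, τ, h1, h2, h3⟩ := h
  exact h3.eventually_nhds.mono fun y hy => ⟨T, τ, h1, h2, hy⟩

theorem isOpen_PT (Y : Set (M × M)) : IsOpen {x | PT A F Y x} :=
  isOpen_iff_mem_nhds.2 fun _ hx => PT.eventually hx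

/-- `b` is in the connected component of `y` in the class of `y` -/
def Cn (Y : Set (M × M)) (q : M × M) : Prop :=
  q.2 ∈ connectedComponentIn {b | (q.1, b) ∈ Y} q.1

theorem PT.cn_open {Y : Set (M × M)} (hd : ∀ x, (x, x) ∈ Y) {x : M} (h : PT A F Y x) {b : M}
    (hb : Cn Y (x, b)) : ∀ᶠ q in 𝓝 (x, b), q ∈ Y → Cn Y q := by
  obtain ⟨T, τ, hT, hs, hY⟩ := h
  have hYx := hY.self_of_nhds
  have hxT : x ∈ T := ((hYx x).1 (hd x)).1
  have hτ : Tendsto τ (𝓝 x) (𝓝 (τ x)) := (hs x hxT).hol.cont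
  have hsub : ∀ {N : Set M} {y c c' : M}, N ⊆ T → (∀ t, IsPreconnected (N ∩ τ ⁻¹' {t})) →
      (∀ b, (y, b) ∈ Y ↔ b ∈ T ∧ τ b = τ y) → c ∈ N → c' ∈ N → (y, c') ∈ Y → Cn Y (y, c) →
      Cn Y (y, c') := by
    intro N y c c' hNT hN hy hc hc' hyc' hcn
    have h1 : (y, c) ∈ Y := connectedComponentIn_subset {b | (y, b) ∈ Y} y hcn
    have h2 := (hN (τ y)).subset_connectedComponentIn (F := {b | (y, b) ∈ Y}) (x := c)
      ⟨hc, ((hy c).1 h1).2⟩ fun z hz => (hy z).2 ⟨hNT hz.1, hz.2⟩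
    have h3 := h2 ⟨hc', ((hy c').1 hyc').2⟩
    rwa [← connectedComponentIn_eq hcn] at h3
  have key : ∀ {N : Set M} {c c' : M}, IsOpen N → N ⊆ T → (∀ t, IsPreconnected (N ∩ τ ⁻¹' {t})) →
      c ∈ N → c' ∈ N → τ c = τ x → (∀ᶠ q in 𝓝 (x, c), q ∈ Y → Cn Y q) →
      ∀ᶠ q in 𝓝 (x, c'), q ∈ Y → Cn Y q := by
    intro N c c' hN hNT hNc hc hc' hτc hG
    rw [nhds_prod_eq, eventually_prod_iff] at hG
    obtain ⟨P₁, hP₁, P₂, hP₂, hG⟩ := hG
    have h1 : τ '' (N ∩ {z | P₂ z}) ∈ 𝓝 (τ x) :=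
      hτc ▸ (hs c (hNT hc)).image_mem_nhds (inter_mem (hN.mem_nhds hc) hP₂)
    filter_upwards [continuousAt_fst.eventually (p := fun y => P₁ y ∧ τ y ∈ τ '' (N ∩ {z | P₂ z}) ∧
      ∀ b, (y, b) ∈ Y ↔ b ∈ T ∧ τ b = τ y) (hP₁.and ((hτ.eventually h1).and hY)),
      continuousAt_snd.eventually (p := fun z => z ∈ N) (hN.mem_nhds hc')] with q hq hq' hqY
    obtain ⟨z, hz, hzτ⟩ := hq.2.1
    exact hsub hNT hNc hq.2.2 hz.1 hq' hqY (hG hq.1 hz.2 ((hq.2.2 z).2 ⟨hNT hz.1, hzτ⟩))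
  refine isPreconnected_connectedComponentIn.induction₂'
    (fun c c' => (∀ᶠ q in 𝓝 (x, c), q ∈ Y → Cn Y q) → ∀ᶠ q in 𝓝 (x, c'), q ∈ Y → Cn Y q)
    (fun c hc => ?_) (fun _ _ _ _ _ _ h1 h2 h => h2 (h1 h)) (mem_connectedComponentIn (hd x)) hb ?_
  · have hc' := (hYx c).1 (connectedComponentIn_subset {b | (x, b) ∈ Y} x hc)
    obtain ⟨N, hN, hcN, hNT, hNc⟩ := box (hs c hc'.1) (hT.mem_nhds hc'.1)
    filter_upwards [mem_nhdsWithin_of_mem_nhds (hN.mem_nhds hcN), self_mem_nhdsWithin]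
      with c' h1 h2
    exact ⟨key hN hNT hNc hcN h1 hc'.2,
      key hN hNT hNc h1 hcN ((hYx c').1 (connectedComponentIn_subset {b | (x, b) ∈ Y} x h2)).2⟩
  · obtain ⟨N, hN, hcN, hNT, hNc⟩ := box (hs x hxT) (hT.mem_nhds hxT)
    filter_upwards [continuousAt_fst.eventually (p := fun y => y ∈ N ∧
      ∀ b, (y, b) ∈ Y ↔ b ∈ T ∧ τ b = τ y) ((hN.eventually_mem hcN).and hY),
      continuousAt_snd.eventually (p := fun z => z ∈ N) (hN.mem_nhds hcN)] with q hq hq' hqY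
    exact hsub hNT hNc hq.2 hq.1 hq' hqY (mem_connectedComponentIn (hd q.1))

theorem PT.cn_closed [T2Space M] {Y : Set (M × M)} (hd : ∀ x, (x, x) ∈ Y) (hbi : BiP Y) {x : M}
    (h : PT A F Y x) {b : M} (hxb : (x, b) ∈ Y) (hb : ¬ Cn Y (x, b)) :
    ∀ᶠ q in 𝓝 (x, b), q ∈ Y → ¬ Cn Y q := by
  obtain ⟨T, τ, hT, hs, hY⟩ := h
  have hYx := hY.self_of_nhds
  set C := {b | (x, b) ∈ Y} with hC
  set K := connectedComponentIn C x with hK
  have hCc : IsCompact C := isCompact_cls hbi x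
  have hloc : ∀ c ∈ C, ∃ N : Set M, IsOpen N ∧ c ∈ N ∧ N ∩ C ⊆ connectedComponentIn C c := by
    intro c hc
    have hc' := (hYx c).1 hc
    obtain ⟨N, hN, hcN, hNT, hNc⟩ := box (hs c hc'.1) (hT.mem_nhds hc'.1)
    refine ⟨N, hN, hcN, fun z hz => (hNc (τ x)).subset_connectedComponentIn ⟨hcN, hc'.2⟩
      (fun w hw => (hYx w).2 ⟨hNT hw.1, hw.2⟩) ⟨hz.1, ((hYx z).1 hz.2).2⟩⟩
  have hcl : ∀ D : Set M, D ⊆ C → (∀ c ∈ C, ∀ z ∈ connectedComponentIn C c, z ∈ D → c ∈ D) →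
      IsCompact D := by
    intro D hD h
    refine hCc.of_isClosed_subset (isClosed_of_closure_subset fun c hc => ?_) hD
    have hcC : c ∈ C := hCc.isClosed.closure_subset_iff.2 hD hc
    obtain ⟨N, hN, hcN, hNC⟩ := hloc c hcC
    obtain ⟨z, hz, hzD⟩ := mem_closure_iff.1 hc N hN hcN
    exact h c hcC z (hNC ⟨hz, hD hzD⟩) hzD
  have h1 : IsCompact K := hcl K (connectedComponentIn_subset _ _) fun c hc z hz hzK => by
    rw [hK, connectedComponentIn_eq hzK, ← connectedComponentIn_eq hz]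
    exact mem_connectedComponentIn hc
  have h2 : IsCompact (C \ K) := hcl _ sdiff_subset fun c hc z hz hzK => ⟨hc, fun hcK =>
    hzK.2 (by rw [hK, connectedComponentIn_eq hcK]; exact hz)⟩
  obtain ⟨U₁, U₂, o1, o2, s1, s2, hdis⟩ := SeparatedNhds.of_isCompact_isCompact h1 h2
    disjoint_sdiff_right
  have h3 := near A hbi (o1.union o2) (x := x) fun c hc => by
    by_cases hcK : c ∈ K
    · exact Or.inl (s1 hcK)
    · exact Or.inr (s2 ⟨hc, hcK⟩)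
  filter_upwards [continuousAt_fst.eventually (p := fun y => y ∈ U₁ ∧
      ∀ c, (y, c) ∈ Y → c ∈ U₁ ∪ U₂)
      ((o1.eventually_mem (s1 (mem_connectedComponentIn (hd x)))).and h3),
    continuousAt_snd.eventually (p := fun z => z ∈ U₂) (o2.mem_nhds (s2 ⟨hxb, hb⟩))]
    with q hq hq' _ hcn
  have h4 := isPreconnected_connectedComponentIn.subset_left_of_subset_union o1 o2 hdis
    (fun z hz => hq.2 z (connectedComponentIn_subset {b | (q.1, b) ∈ Y} q.1 hz))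
    ⟨q.1, mem_connectedComponentIn (hd q.1), hq.1⟩
  exact Set.disjoint_left.1 hdis (h4 hcn) hq'

/-- **CONN**, topological form -/
theorem conn_of [T2Space M] {Y : Set (M × M)} (hd : ∀ x, (x, x) ∈ Y) (hbi : BiP Y) {S : Set M}
    (hS : ∀ x ∈ S, PT A F Y x) (hc : IsPreconnected (Y ∩ Prod.fst ⁻¹' S)) {x : M} (hx : x ∈ S) :
    IsPreconnected {b | (x, b) ∈ Y} := by
  have h1 : ∀ b, (x, b) ∈ Y → Cn Y (x, b) := by
    intro b hb
    by_contra hn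
    obtain ⟨q, hq, k1, k2⟩ := hc (interior {q | q ∈ Y → Cn Y q}) (interior {q | q ∈ Y → ¬ Cn Y q})
      isOpen_interior isOpen_interior (fun q hq => by
        by_cases h : Cn Y q
        · exact Or.inl (mem_interior_iff_mem_nhds.2 ((hS _ hq.2).cn_open hd h))
        · exact Or.inr (mem_interior_iff_mem_nhds.2 ((hS _ hq.2).cn_closed hd hbi hq.1 h)))
      ⟨(x, x), ⟨hd x, hx⟩, mem_interior_iff_mem_nhds.2
        ((hS x hx).cn_open hd (mem_connectedComponentIn (hd x)))⟩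
      ⟨(x, b), ⟨hb, hx⟩, mem_interior_iff_mem_nhds.2 ((hS x hx).cn_closed hd hbi hb hn)⟩
    exact interior_subset k2 hq.1 (interior_subset k1 hq.1)
  have h2 : {b | (x, b) ∈ Y} = connectedComponentIn {b | (x, b) ∈ Y} x :=
    subset_antisymm h1 (connectedComponentIn_subset _ _)
  rw [h2]
  exact isPreconnected_connectedComponentIn

/-- the part of an irreducible relation over an open set with thin complement is connected -/
theorem preconn_over [Countable A.ι] {Y : Set (M × M)} {d : ℕ}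
    (hi : (A.prod A).Irr univ Y d) (hd : ∀ x, (x, x) ∈ Y) {S : Set M} (hS : IsOpen S)
    (hc : A.Cov (finrank ℂ E) Sᶜ) : IsPreconnected (Y ∩ Prod.fst ⁻¹' S) := by
  have : Countable (A.prod A).ι := inferInstanceAs (Countable (A.ι × A.ι))
  obtain ⟨q, -⟩ := hi.nonempty
  have h1 := irr_diff isOpen_univ hi (hS.isClosed_compl.preimage continuous_fst)
    (hi.dom isOpen_univ (fun y _ => hol_fst A A y) (fun h => h.not_mem_nhds q.1
      (univ_mem' fun y => ⟨(y, y), ⟨mem_univ _, hd y⟩, rfl⟩)) hc)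
  convert h1 using 1
  ext z
  simp

/-- **CONN** -/
theorem conn [T2Space M] [Countable A.ι] {Y : Set (M × M)} {d : ℕ}
    (hi : (A.prod A).Irr univ Y d) (hd : ∀ x, (x, x) ∈ Y) (hbi : BiP Y)
    (hc : A.Cov (finrank ℂ E) {x | ¬ PT A F Y x}) {x : M} (hx : PT A F Y x) :
    IsPreconnected {b | (x, b) ∈ Y} :=
  conn_of hd hbi (S := {x | PT A F Y x}) (fun _ h => h)
    (preconn_over hi hd (isOpen_PT Y) hc) hx

end Crest.Agent.X261.Sh4
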