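import Crest.Agent.X261.Ans.EqA
import Crest.Agent.X261.Sh81.Defs

/-!
# X261/Sh4/Max (helper4): the fibres of a tube through general points are maximal
-/

set_option autoImplicit false
set_option linter.unusedSectionVars false

open Set Filter Topology Module

namespace Crest.Agent.X261.Sh4

open Crest.Agent.X261.Ans Crest.Agent.X261.Ans.HA Crest.Agent.X261.Sh97 Crest.Agent.X261.Sh81

variable {E F : Type} [NormedAddCommGroup E] [NormedSpace ℂ E] [FiniteDimensional ℂ E]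
  [NormedAddCommGroup F] [NormedSpace ℂ F] [FiniteDimensional ℂ F]
  {M : Type} [TopologicalSpace M] {A : HA E M}

theorem er_trans {x y z : M} (h : Er A x y) (h' : Er A y z) : Er A x z := by
  obtain ⟨Z, h1, h2, h3, h4, h5⟩ := h
  obtain ⟨Z', h1', h2', h3', h4', h5'⟩ := h'
  exact ⟨Z ∪ Z', h1.union h1', h2.union' ⟨y, h5, h4'⟩ h2', h3.union h3', Or.inl h4, Or.inr h5'⟩

/-- a closed fibre of a holomorphic map on an open set is analytic -/
theorem an_fib {T : Set M} {π : M → F} (hT : IsOpen T) (hh : ∀ y ∈ T, A.Hol (self F) π y) {t : F}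
    (hc : IsClosed (T ∩ π ⁻¹' {t})) : A.An univ (T ∩ π ⁻¹' {t}) :=
  an_of_closed (fun _ _ h => hc.closure_subset h) fun y _ hy =>
    (anAt_eq_self (hh y hy.1) (hol_const A (self F) t y)).congr
      ((hT.eventually_mem hy.1).mono fun _ hz => ⟨fun h => ⟨hz, h⟩, fun h => h.2⟩)

/-- **MAX**, abstract form -/
theorem max_core [T2Space M] [Countable A.ι] {T : Set M} {π : M → F} (hT : IsOpen T)
    (hh : ∀ y ∈ T, A.Hol (self F) π y) (hc : ∀ y ∈ T, IsCompact (T ∩ π ⁻¹' {π y}))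
    (hp : ∀ y ∈ T, IsPreconnected (T ∩ π ⁻¹' {π y})) {Zc : ℕ → Set (M × M)}
    (han : ∀ c, (A.prod A).An univ (Zc c)) (her : ∀ x y, Er A x y → ∃ c, (x, y) ∈ Zc c) {x : M}
    (hx : x ∈ T) (hs : A.Subm (self F) π x) (hloc : ∀ c, ∀ᶠ y in 𝓝 x, (x, y) ∈ Zc c → π y = π x)
    {Z : Set M} (hZc : IsCompact Z) (hZp : IsPreconnected Z) (hZa : A.An univ Z) (hxZ : x ∈ Z) :
    Z ⊆ T ∩ π ⁻¹' {π x} := by
  obtain ⟨σ, s1, s2, s3⟩ := hs.sec
  have hσ : Tendsto σ (𝓝 (π x)) (𝓝 x) := by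
    have := s1.cont.tendsto
    rwa [s2] at this
  have key : ∀ b ∈ T ∩ π ⁻¹' {π x}, ∀ᶠ y in 𝓝 b, y ∈ Z → y ∈ T ∩ π ⁻¹' {π x} := by
    intro b hb
    have hπ : Tendsto π (𝓝 b) (𝓝 (π x)) := by
      have := (hh b hb.1).cont.tendsto
      rwa [show π b = π x from hb.2] at this
    obtain ⟨N, hN, hNo, hbN⟩ := _root_.eventually_nhds_iff.1 ((hT.eventually_mem hb.1).and
      (hπ.eventually (s1.eventually.and (s3.and (hσ.eventually (hT.eventually_mem hx))))))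
    have hZN : A.An N Z := hZa.mono (subset_univ _)
    have h1 : ∀ C ∈ {Y | A.Comp N Z Y ∧ b ∈ Y}, ∀ᶠ y in 𝓝 b, y ∈ C → π y = π x := by
      intro C hC
      obtain ⟨hCZ, d, hI⟩ := hC.1.irr hNo hZN
      obtain ⟨c, hc'⟩ := hI.sub_iUnion hNo (Z := fun c => (fun y => (x, σ (π y))) ⁻¹' Zc c)
        (fun c => (han c).preimage (fun y hy => (hol_const A A x y).prodMk
          ((hN y hy).2.1.comp (hh y (hN y hy).1))) (mapsTo_univ _ _))
        fun y hy => mem_iUnion.2 (her _ _ (er_trans ⟨Z, hZc, hZp, hZa, hxZ, hCZ hy.2⟩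
          ⟨_, hc y (hN y hy.1).1, hp y (hN y hy.1).1,
            an_fib hT hh (hc y (hN y hy.1).1).isClosed, ⟨(hN y hy.1).1, rfl⟩,
            ⟨(hN y hy.1).2.2.2, (hN y hy.1).2.2.1⟩⟩))
      filter_upwards [hNo.mem_nhds hbN, (hσ.comp hπ).eventually (hloc c)] with y hy h2 hyC
      exact (hN y hy).2.2.1.symm.trans (h2 (hc' ⟨hy, hyC⟩))
    filter_upwards [(eventually_all_finite (comp_finite_at hNo hZN hbN)).2 h1,
      comp_near hNo hZN hbN, hNo.mem_nhds hbN] with y h2 h3 hy hyZ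
    obtain ⟨C, k1, k2, k3⟩ := h3 hyZ
    exact ⟨(hN y hy).1, h2 C ⟨k1, k2⟩ k3⟩
  intro z hz
  by_contra hn
  obtain ⟨w, hw, k1, k2⟩ := hZp (interior {y | y ∈ Z → y ∈ T ∩ π ⁻¹' {π x}}) (T ∩ π ⁻¹' {π x})ᶜ
    isOpen_interior (hc x hx).isClosed.isOpen_compl (fun y _ => by
      by_cases h : y ∈ T ∩ π ⁻¹' {π x}
      · exact Or.inl (mem_interior_iff_mem_nhds.2 (key y h))
      · exact Or.inr h)
    ⟨x, hxZ, mem_interior_iff_mem_nhds.2 (key x ⟨hx, rfl⟩)⟩ ⟨z, hz, hn⟩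
  exact k2 (interior_subset k1 hw)

/-- two submersions of the same rank, one constant on the fibres of the other, have the same
fibres locally -/
theorem good_core {π π' : M → F} {x : M} (h : A.Subm (self F) π x) (h' : A.Subm (self F) π' x)
    (hle : ∀ᶠ q in 𝓝 (x, x), π q.1 = π q.2 → π' q.1 = π' q.2) :
    ∀ᶠ q in 𝓝 (x, x), π' q.1 = π' q.2 → π q.1 = π q.2 := by
  obtain ⟨σ, s1, s2, s3⟩ := h.sec
  have hπ : Tendsto π (𝓝 x) (𝓝 (π x)) := h.hol.cont.tendsto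
  have hσ : Tendsto σ (𝓝 (π x)) (𝓝 x) := by
    have := s1.cont.tendsto
    rwa [s2] at this
  have e : ∀ᶠ y in 𝓝 x, π' y = π' (σ (π y)) := by
    have t : Tendsto (fun y => (y, σ (π y))) (𝓝 x) (𝓝 (x, x)) := by
      rw [nhds_prod_eq]
      exact tendsto_id.prodMk (hσ.comp hπ)
    filter_upwards [t.eventually hle, hπ.eventually s3] with y h1 h2
    exact h1 h2.symm
  have hg : (self F).Subm (self F) (fun t => π' (σ t)) (π x) :=
    Subm.of_comp (g := fun t => π' (σ t)) (h'.congr e) (h'.hol.comp_of_eq s1 s2) h.hol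
  obtain ⟨ρ, -, r2, -⟩ := hg.inv rfl
  filter_upwards [continuousAt_fst.eventually (p := fun y => π' y = π' (σ (π y)) ∧
      ρ (π' (σ (π y))) = π y) (e.and (hπ.eventually r2)),
    continuousAt_snd.eventually (p := fun y => π' y = π' (σ (π y)) ∧
      ρ (π' (σ (π y))) = π y) (e.and (hπ.eventually r2))] with q h1 h2 hq
  rw [← h1.2, ← h2.2, ← h1.1, ← h2.1, hq]

/-- **GOOD** -/
theorem good {k : Key A} (Q : Out k) {T : Set M} {π : M → Fin Q.p → ℂ} {O : Set (Fin Q.p → ℂ)}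
    (D : Dat A Q.Y T π O) {x : M} (hx : x ∈ T) (hB : x ∉ Q.B) :
    ∀ᶠ q in 𝓝 (x, x), q ∈ Q.Y → π q.1 = π q.2 := by
  obtain ⟨U, π', G⟩ := Q.gr x hB
  have e : ∀ᶠ q in 𝓝 (x, x), (q.1 ∈ T ∧ q.1 ∈ U) ∧ q.2 ∈ T ∧ q.2 ∈ U :=
    (continuousAt_fst.eventually (p := fun y => y ∈ T ∧ y ∈ U)
      ((D.opn.eventually_mem hx).and (G.opn.eventually_mem G.mem))).and
    (continuousAt_snd.eventually (p := fun y => y ∈ T ∧ y ∈ U)
      ((D.opn.eventually_mem hx).and (G.opn.eventually_mem G.mem)))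
  filter_upwards [e, good_core (D.subm x hx) (G.subm x G.mem) (e.mono fun q hq h =>
    (G.iff _ hq.1.2 _ hq.2.2).1 (D.sub _ hq.1.1 _ hq.2.1 h))] with q hq h1 h2
  exact h1 ((G.iff _ hq.1.2 _ hq.2.2).1 h2)

theorem fib_compact {Y : Set (M × M)} {p : ℕ} {T : Set M} {π : M → Fin p → ℂ}
    {O : Set (Fin p → ℂ)} (D : Dat A Y T π O) {y : M} (hy : y ∈ T) :
    IsCompact (T ∩ π ⁻¹' {π y}) :=
  D.prop _ (singleton_subset_iff.2 (D.img ▸ mem_image_of_mem π hy)) isCompact_singleton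

theorem fib_an [T2Space M] {Y : Set (M × M)} {p : ℕ} {T : Set M} {π : M → Fin p → ℂ}
    {O : Set (Fin p → ℂ)} (D : Dat A Y T π O) {y : M} (hy : y ∈ T) :
    A.An univ (T ∩ π ⁻¹' {π y}) :=
  an_fib D.opn (fun z hz => (D.subm z hz).hol) (fib_compact D hy).isClosed

/-- **MAX** -/
theorem max [T2Space M] [Countable A.ι] {k : Key A} (Q : Out k) {T : Set M}
    {π : M → Fin Q.p → ℂ} {O : Set (Fin Q.p → ℂ)} (D : Dat A Q.Y T π O) {x : M} (hx : x ∈ T)
    (hB : x ∉ Q.B) {Z : Set M} (hZc : IsCompact Z) (hZp : IsPreconnected Z) (hZa : A.An univ Z)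
    (hxZ : x ∈ Z) : Z ⊆ T ∩ π ⁻¹' {π x} := by
  have t : Tendsto (fun y => (x, y)) (𝓝 x) (𝓝 (x, x)) := (Continuous.prodMk_right x).tendsto x
  refine max_core D.opn (fun y hy => (D.subm y hy).hol) (fun y hy => fib_compact D hy)
    (fun y _ => D.conn _) k.an k.er hx (D.subm x hx) (fun c => ?_) hZc hZp hZa hxZ
  filter_upwards [t.eventually (Q.loc x hB c), t.eventually (good Q D hx hB)] with y h1 h2 h3
  exact (h2 (h1 h3)).symm

/-- uniqueness of the fibre through a general point -/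
theorem uniq_gen [T2Space M] [Countable A.ι] {k : Key A} (Q : Out k) {T T' : Set M}
    {π π' : M → Fin Q.p → ℂ} {O O' : Set (Fin Q.p → ℂ)} (D : Dat A Q.Y T π O)
    (D' : Dat A Q.Y T' π' O') {x : M} (hx : x ∈ T) (hx' : x ∈ T') (hB : x ∉ Q.B) :
    T ∩ π ⁻¹' {π x} = T' ∩ π' ⁻¹' {π' x} :=
  subset_antisymm (max Q D' hx' hB (fib_compact D hx) (D.conn _) (fib_an D hx) ⟨hx, rfl⟩)
    (max Q D hx hB (fib_compact D' hx') (D'.conn _) (fib_an D' hx') ⟨hx', rfl⟩)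

end Crest.Agent.X261.Sh4
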