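import Crest.Agent.X261.Sh4.Max
import Crest.Agent.X261.Shaf.Defs2

/-!
# X261/Sh4/MaxS (helper4): `Shaf.MaxStmt`
-/

set_option autoImplicit false

open Set Filter Topology Module

namespace Crest.Agent.X261.Sh4

open Crest.Agent.X261.Ans Crest.Agent.X261.Ans.HA

theorem maxStmt : Shaf.MaxStmt := by
  intro E M _ _ _ _ _ _ A _ C T τ h x hx hloc z hz
  obtain ⟨Z, h1, h2, h3, h4, h5⟩ := hz
  have e : ∀ y ∈ T, T ∩ τ ⁻¹' {τ y} = {z | (y, z) ∈ C.Y} := fun y hy =>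
    Set.ext fun w => (h.fib y hy w).symm
  have t : Tendsto (fun y => (x, y)) (𝓝 x) (𝓝 (x, x)) := (Continuous.prodMk_right x).tendsto x
  refine (h.fib x hx z).2 (max_core h.opn (fun y hy => (h.subm y hy).hol)
    (fun y hy => e y hy ▸ C.bip.fib1 y) (fun y hy => e y hy ▸ h.conn y hy) C.Z_an C.er hx
    (h.subm x hx) (fun c => ?_) h1 h2 h3 h4 h5)
  filter_upwards [t.eventually (hloc c)] with y k1 k2
  exact ((h.fib x hx y).1 (k1 k2)).2

end Crest.Agent.X261.Sh4
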